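import Vale.Agent.P050.R4.H987.StarDef

/-!
# P050, star law: monotonicity of the mutual information between two bridges
-/

namespace Vale.Agent.P050.SP

open Finset Matrix Vale.Agent.P050.Ears

variable {S : Type*} [Fintype S] [DecidableEq S]

theorem RR_symm (A : Matrix S S ℝ) (α β h : ℕ) (u x y : S) :
    RR A α β h u x y = RR A β α h u y x := by
  unfold RR
  exact Finset.sum_congr rfl fun z _ => by rw [mul_comm ((A ^ α) x z)]

/-- exchange of the two points -/
theorem Psi_symm (A : Matrix S S ℝ) (μ : S → ℝ) (c : S → Bool) {i α j β : ℕ}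
    (e : i + α = j + β) (t : Bool) : Psi A μ c i α j β t = Psi A μ c j β i α t := by
  unfold Psi
  refine Finset.sum_congr rfl fun u _ => ?_
  congr 1
  rw [Finset.sum_comm]
  refine Finset.sum_congr rfl fun y _ => Finset.sum_congr rfl fun x _ => ?_
  rw [RR_symm A α β, e, mul_comm ((A ^ i) u x)]

variable {A : Matrix S S ℝ} {μ : S → ℝ} {c : S → Bool} (h : Rev A μ c)

include h

theorem RR_nonneg (α β k : ℕ) (u x y : S) : 0 ≤ RR A α β k u x y := by
  unfold RR
  exact Finset.sum_nonneg fun z _ => div_nonneg
    (mul_nonneg (h.pow_nonneg _ _ _) (h.pow_nonneg _ _ _)) (h.pow_nonneg _ _ _)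

omit h in
theorem RR_step (A : Matrix S S ℝ) (α β s k : ℕ) (u x y : S) :
    RR A α (β + s) k u x y = ∑ w, (A ^ s) y w * RR A α β k u x w := by
  unfold RR
  simp only [Finset.mul_sum]
  rw [Finset.sum_comm]
  refine Finset.sum_congr rfl fun z _ => ?_
  rw [add_comm β s, pow_add, Matrix.mul_apply, Finset.mul_sum, Finset.sum_div]
  exact Finset.sum_congr rfl fun w _ => by ring

/-- the information grows if the second point moves away from `u` -/
theorem Psi_mono {i α j s β : ℕ} (t : Bool) :
    Psi A μ c i α j (β + s) t ≤ Psi A μ c i α (j + s) β t := by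
  unfold Psi
  refine Finset.sum_le_sum fun u _ => ?_
  have hμ : 0 ≤ (if c u = t then μ u else 0) := by
    split_ifs
    · exact (h.pos u).le
    · exact le_rfl
  refine mul_le_mul_of_nonneg_left ?_ hμ
  refine Finset.sum_le_sum fun x _ => ?_
  have h1 : ∀ y, RR A α (β + s) (i + α) u x y * Real.log (RR A α (β + s) (i + α) u x y) ≤
      ∑ w, (A ^ s) y w * (RR A α β (i + α) u x w * Real.log (RR A α β (i + α) u x w)) := by
    intro y
    have h2 := Real.convexOn_mul_log.map_sum_le (t := (univ : Finset S))
      (w := fun w => (A ^ s) y w) (p := fun w => RR A α β (i + α) u x w)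
      (fun w _ => h.pow_nonneg s y w) (h.pow_row s y)
      (fun w _ => RR_nonneg h α β (i + α) u x w)
    simp only [smul_eq_mul] at h2
    rw [RR_step]
    exact h2
  calc ∑ y, (A ^ i) u x * (A ^ j) u y * (RR A α (β + s) (i + α) u x y *
        Real.log (RR A α (β + s) (i + α) u x y)) ≤
      ∑ y, (A ^ i) u x * (A ^ j) u y * ∑ w, (A ^ s) y w * (RR A α β (i + α) u x w *
        Real.log (RR A α β (i + α) u x w)) :=
        Finset.sum_le_sum fun y _ => mul_le_mul_of_nonneg_left (h1 y)
          (mul_nonneg (h.pow_nonneg _ _ _) (h.pow_nonneg _ _ _))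
    _ = ∑ w, (A ^ i) u x * (A ^ (j + s)) u w * (RR A α β (i + α) u x w *
        Real.log (RR A α β (i + α) u x w)) := by
        simp only [Finset.mul_sum]
        rw [Finset.sum_comm]
        refine Finset.sum_congr rfl fun w _ => ?_
        rw [pow_add, Matrix.mul_apply, Finset.mul_sum, Finset.sum_mul]
        exact Finset.sum_congr rfl fun y _ => by ring

/-- the information grows if the first point moves away from `u` -/
theorem Psi_mono_left {i α s j β : ℕ} (e : i + s + α = j + β) (t : Bool) :
    Psi A μ c i (α + s) j β t ≤ Psi A μ c (i + s) α j β t := by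
  rw [Psi_symm A μ c (by omega : i + (α + s) = j + β), Psi_symm A μ c e]
  exact Psi_mono h t

/-- **exchange of the poles**: `x` has distances `p`, `k` and `w` has distances `q`, `d` from the
two poles -/
theorem Psi_swap {p k q d : ℕ} (hT : p + k = q + d) (hp : p ≤ d) (t : Bool) :
    Psi A μ c p k q d t ≤ Psi A μ c k p d q t := by
  obtain ⟨s, rfl⟩ := Nat.exists_eq_add_of_le hp
  have hk : k = q + s := by omega
  subst hk
  rw [Psi_symm A μ c hT]
  exact (Psi_mono_left h (by omega) t).trans (Psi_mono h t)

theorem Psi_swap' {p k q d : ℕ} (hT : p + k = q + d) (hp : p ≤ d) (hev : Even (p + k))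
    (t : Bool) : Psi A μ c p k q d (sh t (p + k)) ≤ Psi A μ c k p d q t := by
  have h1 : sh t (p + k) = t := by
    unfold sh
    rw [Nat.even_iff.1 hev]
    simp
  rw [h1]
  exact Psi_swap h hT hp t

end Vale.Agent.P050.SP
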